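import Mathlib
import Vale.Agent.P033.Bridge

/-- The circulant Hadamard conjecture: a real circulant Hadamard matrix of order `n ≥ 1`
exists if and only if `n = 1` or `n = 4`. -/
theorem Vale.Agent.Results.P033.Full.result (n : ℕ) (hn : 1 ≤ n) :
    (∃ (H : Matrix (Fin n) (Fin n) ℝ) (h : ℤ → ℝ),
      (∀ i j : Fin n, H i j = 1 ∨ H i j = -1) ∧
      (∀ i j : Fin n, H i j = h (((j : ℤ) - (i : ℤ)) % (n : ℤ))) ∧
      H * H.transpose = (n : ℝ) • (1 : Matrix (Fin n) (Fin n) ℝ)) ↔ (n = 1 ∨ n = 4) := by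
  constructor
  · rintro ⟨H, h, h1, h2, h3⟩
    exact Vale.Agent.P033.circulant_hadamard hn H h h1 h2 h3
  · rintro (rfl | rfl)
    · exact Vale.Agent.P033.exists_one
    · exact Vale.Agent.P033.exists_four
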